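import Mathlib

namespace Vale.Agent.Results.P052.FewPoints

open Finset
open scoped RealInnerProductSpace

/-- There is no set of `d + 2` points in `ℝ^d` all of whose mutual distances equal `D`, except
possibly for one pair `a, b` at positive distance at most `D`. -/
lemma no_almost_simplex (d : ℕ) (D : ℝ) (W : Finset (EuclideanSpace ℝ (Fin d)))
    (hW : W.card = d + 2) (a b : EuclideanSpace ℝ (Fin d)) (ha : a ∈ W) (hb : b ∈ W) (hab : a ≠ b)
    (habD : dist a b ≤ D)
    (hall : ∀ x ∈ W, ∀ y ∈ W, x ≠ y → ¬(x = a ∧ y = b) → ¬(x = b ∧ y = a) → dist x y = D) :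
    False := by
  classical
  set t : ℝ := dist a b with ht
  have ht0 : 0 < t := dist_pos.mpr hab
  have hb' : b ∈ W.erase a := Finset.mem_erase.mpr ⟨hab.symm, hb⟩
  let u : {x // x ∈ W.erase a} → EuclideanSpace ℝ (Fin d) := fun x => (x : EuclideanSpace ℝ (Fin d)) - a
  let b0 : {x // x ∈ W.erase a} := ⟨b, hb'⟩
  have hn : ∀ x : {x // x ∈ W.erase a}, ‖u x‖ * ‖u x‖ = D ^ 2 - (if x = b0 then D ^ 2 - t ^ 2 else 0) := by
    intro x
    have hx := Finset.mem_erase.mp x.2
    by_cases hxb : x = b0
    · subst hxb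
      simp only [if_true]
      have : ‖u b0‖ = t := by
        simp only [u, b0, ht]
        rw [dist_comm, dist_eq_norm]
      rw [this]
      ring
    · simp only [hxb, if_false]
      have hxb' : (x : EuclideanSpace ℝ (Fin d)) ≠ b := by
        intro h
        apply hxb
        exact Subtype.ext h
      have : ‖u x‖ = D := by
        simp only [u]
        rw [← dist_eq_norm]
        apply hall _ hx.2 _ ha hx.1
        · rintro ⟨h1, _⟩
          exact hx.1 h1
        · rintro ⟨h1, _⟩
          exact hxb' h1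
      rw [this]
      ring
  have hM : ∀ x y : {x // x ∈ W.erase a}, ⟪u x, u y⟫ =
      (‖u x‖ * ‖u x‖ + ‖u y‖ * ‖u y‖) / 2 - D ^ 2 / 2 + (if x = y then D ^ 2 / 2 else 0) := by
    intro x y
    rw [real_inner_eq_norm_mul_self_add_norm_mul_self_sub_norm_sub_mul_self_div_two]
    by_cases hxy : x = y
    · subst hxy
      simp
    · simp only [hxy, if_false]
      have hx := Finset.mem_erase.mp x.2
      have hy := Finset.mem_erase.mp y.2
      have hxy' : (x : EuclideanSpace ℝ (Fin d)) ≠ y := fun h => hxy (Subtype.ext h)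
      have : ‖u x - u y‖ = D := by
        have h1 : u x - u y = (x : EuclideanSpace ℝ (Fin d)) - y := by
          simp only [u]
          abel
        rw [h1, ← dist_eq_norm]
        apply hall _ hx.2 _ hy.2 hxy'
        · rintro ⟨h1, _⟩
          exact hx.1 h1
        · rintro ⟨_, h1⟩
          exact hy.1 h1
      rw [this]
      ring
  have hli : LinearIndependent ℝ u := by
    rw [Fintype.linearIndependent_iff]
    intro g hg
    set S : ℝ := ∑ x, g x with hS
    set P : ℝ := ∑ x, g x * (‖u x‖ * ‖u x‖) with hP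
    set Q : ℝ := ∑ x, g x ^ 2 with hQ
    have hE : ∀ y, P / 2 + (‖u y‖ * ‖u y‖) * S / 2 - D ^ 2 * S / 2 + D ^ 2 * g y / 2 = 0 := by
      intro y
      have h1 : ⟪∑ x, g x • u x, u y⟫ = 0 := by
        rw [hg]
        simp
      rw [sum_inner] at h1
      have h2 : ∀ x, ⟪g x • u x, u y⟫ = g x * (‖u x‖ * ‖u x‖) / 2 + g x * ((‖u y‖ * ‖u y‖) / 2 - D ^ 2 / 2)
          + (if x = y then g x * (D ^ 2 / 2) else 0) := by
        intro x
        rw [real_inner_smul_left, hM]
        split_ifs <;> ring
      simp_rw [h2] at h1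
      rw [Finset.sum_add_distrib, Finset.sum_add_distrib, ← Finset.sum_div, ← Finset.sum_mul,
        Finset.sum_ite_eq' ] at h1
      simp only [Finset.mem_univ, if_true] at h1
      rw [← hP, ← hS] at h1
      linarith
    have hPS : P = D ^ 2 * S - (D ^ 2 - t ^ 2) * g b0 := by
      rw [hP]
      have h3 : ∀ x, g x * (‖u x‖ * ‖u x‖) = D ^ 2 * g x - (if x = b0 then (D ^ 2 - t ^ 2) * g x else 0) := by
        intro x
        rw [hn]
        split_ifs <;> ring
      simp_rw [h3]
      rw [Finset.sum_sub_distrib, ← Finset.mul_sum, Finset.sum_ite_eq']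
      simp [hS]
    have hquad : P * S - D ^ 2 / 2 * S ^ 2 + D ^ 2 / 2 * Q = 0 := by
      have h4 : ∑ y, g y * (P / 2 + (‖u y‖ * ‖u y‖) * S / 2 - D ^ 2 * S / 2 + D ^ 2 * g y / 2) = 0 := by
        apply Finset.sum_eq_zero
        intro y _
        rw [hE y]
        ring
      have h5 : ∀ y, g y * (P / 2 + (‖u y‖ * ‖u y‖) * S / 2 - D ^ 2 * S / 2 + D ^ 2 * g y / 2)
          = g y * (P / 2 - D ^ 2 * S / 2) + g y * (‖u y‖ * ‖u y‖) * (S / 2) + g y ^ 2 * (D ^ 2 / 2) := by
        intro y
        ring
      simp_rw [h5] at h4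
      rw [Finset.sum_add_distrib, Finset.sum_add_distrib, ← Finset.sum_mul, ← Finset.sum_mul,
        ← Finset.sum_mul, ← hS, ← hP, ← hQ] at h4
      linarith
    have hQb : g b0 ^ 2 ≤ Q := by
      rw [hQ]
      exact Finset.single_le_sum (f := fun x => g x ^ 2) (fun x _ => sq_nonneg _) (Finset.mem_univ b0)
    have htD : t ^ 2 ≤ D ^ 2 := by
      apply pow_le_pow_left₀ ht0.le habD
    have hQ0 : Q ≤ 0 := by
      have h6 : t ^ 2 / 2 * Q ≤ 0 := by
        rw [hPS] at hquad
        nlinarith [sq_nonneg (g b0 - S), mul_nonneg (sub_nonneg.mpr htD) (sub_nonneg.mpr hQb),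
          mul_nonneg (sub_nonneg.mpr htD) (sq_nonneg (g b0 - S)), sq_nonneg S, sq_nonneg t]
      have h7 : 0 < t ^ 2 / 2 := by positivity
      by_contra hc
      rw [not_le] at hc
      have := mul_pos h7 hc
      linarith
    intro i
    have h8 : g i ^ 2 ≤ Q := by
      rw [hQ]
      exact Finset.single_le_sum (f := fun x => g x ^ 2) (fun x _ => sq_nonneg _) (Finset.mem_univ i)
    have h9 : g i ^ 2 = 0 := le_antisymm (le_trans h8 hQ0) (sq_nonneg _)
    exact pow_eq_zero_iff (two_ne_zero) |>.mp h9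
  have hcard := hli.fintype_card_le_finrank
  rw [finrank_euclideanSpace, Fintype.card_fin, Fintype.card_coe, Finset.card_erase_of_mem ha, hW] at hcard
  omega

/-- `Y` can be coloured with `k` colours so that points at distance exactly `D` get
different colours. -/
def Col {E : Type*} [MetricSpace E] (D : ℝ) (Y : Finset E) (k : ℕ) : Prop :=
  ∃ f : E → ℕ, (∀ x ∈ Y, f x < k) ∧ ∀ x ∈ Y, ∀ y ∈ Y, x ≠ y → dist x y = D → f x ≠ f y

section colouring

variable {E : Type*} [MetricSpace E] [DecidableEq E] {D : ℝ}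

lemma col_mono {Y : Finset E} {k k' : ℕ} (h : k ≤ k') (hc : Col D Y k) : Col D Y k' := by
  obtain ⟨f, h1, h2⟩ := hc
  exact ⟨f, fun x hx => lt_of_lt_of_le (h1 x hx) h, h2⟩

lemma col_peel (Y Z : Finset E) (k : ℕ) (hZ : ∀ x ∈ Z, ∀ y ∈ Z, x ≠ y → dist x y ≠ D)
    (hc : Col D (Y \ Z) k) : Col D Y (k + 1) := by
  obtain ⟨f, h1, h2⟩ := hc
  refine ⟨fun x => if x ∈ Z then k else f x, ?_, ?_⟩
  · intro x hx
    by_cases hxZ : x ∈ Z
    · simp [hxZ]
    · simp only [hxZ, if_false]
      exact Nat.lt_succ_of_lt (h1 x (Finset.mem_sdiff.mpr ⟨hx, hxZ⟩))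
  · intro x hx y hy hxy hd
    by_cases hxZ : x ∈ Z <;> by_cases hyZ : y ∈ Z
    · exact absurd hd (hZ x hxZ y hyZ hxy)
    · simp only [hxZ, hyZ, if_true, if_false]
      exact (ne_of_lt (h1 y (Finset.mem_sdiff.mpr ⟨hy, hyZ⟩))).symm
    · simp only [hxZ, hyZ, if_true, if_false]
      exact ne_of_lt (h1 x (Finset.mem_sdiff.mpr ⟨hx, hxZ⟩))
    · simp only [hxZ, hyZ, if_false]
      exact h2 x (Finset.mem_sdiff.mpr ⟨hx, hxZ⟩) y (Finset.mem_sdiff.mpr ⟨hy, hyZ⟩) hxy hd

lemma col_card (Y : Finset E) : Col D Y Y.card := by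
  induction Y using Finset.induction_on with
  | empty => exact ⟨fun _ => 0, by simp, by simp⟩
  | insert a Y ha ih =>
    rw [Finset.card_insert_of_notMem ha]
    apply col_peel (insert a Y) {a} Y.card
    · intro x hx y hy hxy
      rw [Finset.mem_singleton] at hx hy
      exact absurd (hx.trans hy.symm) hxy
    · have : insert a Y \ {a} = Y := by
        ext x
        simp only [Finset.mem_sdiff, Finset.mem_insert, Finset.mem_singleton]
        constructor
        · rintro ⟨h1 | h1, h2⟩
          · exact absurd h1 h2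
          · exact h1
        · intro h
          exact ⟨Or.inr h, fun h2 => ha (h2 ▸ h)⟩
      rw [this]
      exact ih

lemma pair_ok {a b : E} (hab : dist a b ≠ D) :
    ∀ x ∈ ({a, b} : Finset E), ∀ y ∈ ({a, b} : Finset E), x ≠ y → dist x y ≠ D := by
  intro x hx y hy hxy
  simp only [Finset.mem_insert, Finset.mem_singleton] at hx hy
  rcases hx with rfl | rfl <;> rcases hy with rfl | rfl
  · exact absurd rfl hxy
  · exact hab
  · rw [dist_comm]; exact hab
  · exact absurd rfl hxy

lemma triple_ok {a b c : E} (hab : dist a b ≠ D) (hac : dist a c ≠ D) (hbc : dist b c ≠ D) :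
    ∀ x ∈ ({a, b, c} : Finset E), ∀ y ∈ ({a, b, c} : Finset E), x ≠ y → dist x y ≠ D := by
  intro x hx y hy hxy
  simp only [Finset.mem_insert, Finset.mem_singleton] at hx hy
  rcases hx with rfl | rfl | rfl <;> rcases hy with rfl | rfl | rfl <;>
    first
      | exact absurd rfl hxy
      | assumption
      | (rw [dist_comm]; assumption)

/-- two disjoint short pairs save two colours -/
lemma col_two_pairs (Y : Finset E) (a b c e : E) (ha : a ∈ Y) (hb : b ∈ Y) (hc : c ∈ Y) (he : e ∈ Y)
    (hab : a ≠ b) (hce : c ≠ e) (hca : c ≠ a) (hcb : c ≠ b) (hea : e ≠ a) (heb : e ≠ b)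
    (dab : dist a b ≠ D) (dce : dist c e ≠ D) : Col D Y (Y.card - 2) := by
  have h1 := col_card (D := D) ((Y \ {a, b}) \ {c, e})
  have h2 := col_peel (Y \ {a, b}) {c, e} _ (pair_ok dce) h1
  have h3 := col_peel Y {a, b} _ (pair_ok dab) h2
  have c1 : (Y \ {a, b}).card = Y.card - 2 := by
    rw [Finset.card_sdiff_of_subset (by intro x hx; simp only [Finset.mem_insert, Finset.mem_singleton] at hx; rcases hx with rfl | rfl <;> assumption),
      Finset.card_pair hab]
  have c2 : ((Y \ {a, b}) \ {c, e}).card = (Y \ {a, b}).card - 2 := by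
    rw [Finset.card_sdiff_of_subset (by
      intro x hx
      simp only [Finset.mem_insert, Finset.mem_singleton] at hx
      rcases hx with rfl | rfl <;> simp [*]), Finset.card_pair hce]
  have c3 : 4 ≤ Y.card := by
    have : ({a, b, c, e} : Finset E) ⊆ Y := by
      intro x hx
      simp only [Finset.mem_insert, Finset.mem_singleton] at hx
      rcases hx with rfl | rfl | rfl | rfl <;> assumption
    have h4 := Finset.card_le_card this
    have h5 : ({a, b, c, e} : Finset E).card = 4 := by
      rw [Finset.card_insert_of_notMem, Finset.card_insert_of_notMem, Finset.card_pair hce]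
      · simp [hcb.symm, heb.symm]
      · simp [hab, hca.symm, hea.symm]
    omega
  apply col_mono _ h3
  omega

lemma mem_sdiff_pair {S : Finset E} {x a b : E} (hx : x ∈ S) (h1 : x ≠ a) (h2 : x ≠ b) :
    x ∈ S \ {a, b} := by
  simp [hx, h1, h2]

lemma pair_subset {S : Finset E} {x y : E} (hx : x ∈ S) (hy : y ∈ S) : ({x, y} : Finset E) ⊆ S := by
  intro w hw
  simp only [Finset.mem_insert, Finset.mem_singleton] at hw
  rcases hw with rfl | rfl <;> assumption

lemma triple_subset {S : Finset E} {x y z : E} (hx : x ∈ S) (hy : y ∈ S) (hz : z ∈ S) :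
    ({x, y, z} : Finset E) ⊆ S := by
  intro w hw
  simp only [Finset.mem_insert, Finset.mem_singleton] at hw
  rcases hw with rfl | rfl | rfl <;> assumption

/-- three disjoint short pairs save three colours -/
lemma col_three_pairs (Y : Finset E) (a b c e p q : E) (hab : a ≠ b) (hce : c ≠ e) (hpq : p ≠ q)
    (h1 : ({a, b} : Finset E) ⊆ Y) (h2 : ({c, e} : Finset E) ⊆ Y \ {a, b})
    (h3 : ({p, q} : Finset E) ⊆ (Y \ {a, b}) \ {c, e})
    (dab : dist a b ≠ D) (dce : dist c e ≠ D) (dpq : dist p q ≠ D) :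
    ∃ k, k + 3 = Y.card ∧ Col D Y k := by
  have g1 := col_card (D := D) (((Y \ {a, b}) \ {c, e}) \ {p, q})
  have g2 := col_peel ((Y \ {a, b}) \ {c, e}) {p, q} _ (pair_ok dpq) g1
  have g3 := col_peel (Y \ {a, b}) {c, e} _ (pair_ok dce) g2
  have g4 := col_peel Y {a, b} _ (pair_ok dab) g3
  have c1 : (Y \ {a, b}).card = Y.card - 2 := by
    rw [Finset.card_sdiff_of_subset h1, Finset.card_pair hab]
  have c2 : ((Y \ {a, b}) \ {c, e}).card = (Y \ {a, b}).card - 2 := by
    rw [Finset.card_sdiff_of_subset h2, Finset.card_pair hce]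
  have c3 : (((Y \ {a, b}) \ {c, e}) \ {p, q}).card = ((Y \ {a, b}) \ {c, e}).card - 2 := by
    rw [Finset.card_sdiff_of_subset h3, Finset.card_pair hpq]
  have e1 := Finset.card_le_card h1
  have e2 := Finset.card_le_card h2
  have e3 := Finset.card_le_card h3
  rw [Finset.card_pair hab] at e1
  rw [Finset.card_pair hce] at e2
  rw [Finset.card_pair hpq] at e3
  refine ⟨_, ?_, g4⟩
  omega

/-- a short pair and a disjoint short triangle save three colours -/
lemma col_pair_triangle (Y : Finset E) (a b z c e : E) (hab : a ≠ b) (hzc : z ≠ c) (hze : z ≠ e)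
    (hce : c ≠ e)
    (h1 : ({a, b} : Finset E) ⊆ Y) (h2 : ({z, c, e} : Finset E) ⊆ Y \ {a, b})
    (dab : dist a b ≠ D) (dzc : dist z c ≠ D) (dze : dist z e ≠ D) (dce : dist c e ≠ D) :
    ∃ k, k + 3 = Y.card ∧ Col D Y k := by
  have g2 := col_card (D := D) ((Y \ {a, b}) \ {z, c, e})
  have g3 := col_peel (Y \ {a, b}) {z, c, e} _ (triple_ok dzc dze dce) g2
  have g4 := col_peel Y {a, b} _ (pair_ok dab) g3
  have c0 : ({z, c, e} : Finset E).card = 3 := by
    rw [Finset.card_insert_of_notMem, Finset.card_pair hce]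
    simp [hzc, hze]
  have c1 : (Y \ {a, b}).card = Y.card - 2 := by
    rw [Finset.card_sdiff_of_subset h1, Finset.card_pair hab]
  have c2 : ((Y \ {a, b}) \ {z, c, e}).card = (Y \ {a, b}).card - 3 := by
    rw [Finset.card_sdiff_of_subset h2, c0]
  have e1 := Finset.card_le_card h1
  have e2 := Finset.card_le_card h2
  rw [Finset.card_pair hab] at e1
  rw [c0] at e2
  refine ⟨_, ?_, g4⟩
  omega

end colouring

lemma two_short (d : ℕ) (D : ℝ) (W : Finset (EuclideanSpace ℝ (Fin d)))
    (hdist : ∀ x ∈ W, ∀ y ∈ W, dist x y ≤ D) (hW : W.card = d + 2) :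
    ∃ a ∈ W, ∃ b ∈ W, ∃ x ∈ W, ∃ y ∈ W, a ≠ b ∧ dist a b ≠ D ∧ x ≠ y ∧ dist x y ≠ D ∧
      ¬(x = a ∧ y = b) ∧ ¬(x = b ∧ y = a) := by
  have step : ∀ a ∈ W, ∀ b ∈ W, a ≠ b → ∃ x ∈ W, ∃ y ∈ W, x ≠ y ∧ dist x y ≠ D ∧
      ¬(x = a ∧ y = b) ∧ ¬(x = b ∧ y = a) := by
    intro a ha b hb hab
    by_contra hcon
    apply no_almost_simplex d D W hW a b ha hb hab (hdist a ha b hb)
    intro x hx y hy hxy h1 h2
    by_contra hne
    exact hcon ⟨x, hx, y, hy, hxy, hne, h1, h2⟩
  obtain ⟨p, hp, q, hq, hpq⟩ := Finset.one_lt_card.mp (by omega : 1 < W.card)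
  obtain ⟨a, ha, b, hb, hab, dab, _, _⟩ := step p hp q hq hpq
  obtain ⟨x, hx, y, hy, hxy, dxy, h1, h2⟩ := step a ha b hb hab
  exact ⟨a, ha, b, hb, x, hx, y, hy, hab, dab, hxy, dxy, h1, h2⟩

lemma final_case {d : ℕ} {D : ℝ} (Y : Finset (EuclideanSpace ℝ (Fin d))) (hcard : Y.card = d + 4)
    (hdist : ∀ x ∈ Y, ∀ y ∈ Y, dist x y ≤ D)
    (hdeg : ∀ v ∈ Y, ∀ T : Finset (EuclideanSpace ℝ (Fin d)), T ⊆ Y.erase v →
      (∀ t ∈ T, dist v t ≠ D) → T.card + d + 2 ≤ Y.card)
    (a b z c e : EuclideanSpace ℝ (Fin d)) (ha : a ∈ Y) (hb : b ∈ Y) (hz : z ∈ Y) (hc : c ∈ Y)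
    (he : e ∈ Y) (hab : a ≠ b) (hza : z ≠ a) (hzb : z ≠ b) (hca : c ≠ a) (hcb : c ≠ b)
    (hea : e ≠ a) (heb : e ≠ b) (hzc : z ≠ c) (hze : z ≠ e) (hce : c ≠ e)
    (dab : dist a b ≠ D) (dzc : dist z c ≠ D) (dze : dist z e ≠ D) : Col D Y (d + 1) := by
  by_cases hcc : dist c e = D
  · have haz : a ∈ Y.erase z := Finset.mem_erase.mpr ⟨hza.symm, ha⟩
    have hW2card : ((Y.erase z).erase a).card = d + 2 := by
      rw [Finset.card_erase_of_mem haz, Finset.card_erase_of_mem hz, hcard]
      rfl
    have hW2 : ∀ x ∈ (Y.erase z).erase a, x ∈ Y ∧ x ≠ z ∧ x ≠ a := by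
      intro x hx
      have h1 := Finset.mem_erase.mp hx
      have h2 := Finset.mem_erase.mp h1.2
      exact ⟨h2.2, h2.1, h1.1⟩
    obtain ⟨p, hp, q, hq, p', hp', q', hq', hpq, dpq, hpq', dpq', n1, n2⟩ :=
      two_short d D ((Y.erase z).erase a)
        (fun x hx y hy => hdist x (hW2 x hx).1 y (hW2 y hy).1) hW2card
    have key : ∀ p ∈ (Y.erase z).erase a, ∀ q ∈ (Y.erase z).erase a, p ≠ q → dist p q ≠ D →
        Col D Y (d + 1) ∨ p = b ∨ q = b := by
      intro p hp q hq hpq dpq
      by_cases hpb : p = b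
      · exact Or.inr (Or.inl hpb)
      by_cases hqb : q = b
      · exact Or.inr (Or.inr hqb)
      left
      obtain ⟨hpY, hpz, hpa⟩ := hW2 p hp
      obtain ⟨hqY, hqz, hqa⟩ := hW2 q hq
      by_cases h1 : p ≠ c ∧ q ≠ c
      · obtain ⟨k, hk, hcol⟩ := col_three_pairs Y a b z c p q hab hzc hpq (pair_subset ha hb)
          (pair_subset (mem_sdiff_pair hz hza hzb) (mem_sdiff_pair hc hca hcb))
          (pair_subset (mem_sdiff_pair (mem_sdiff_pair hpY hpa hpb) hpz h1.1)
            (mem_sdiff_pair (mem_sdiff_pair hqY hqa hqb) hqz h1.2)) dab dzc dpq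
        have : k = d + 1 := by omega
        exact this ▸ hcol
      · by_cases h2 : p ≠ e ∧ q ≠ e
        · obtain ⟨k, hk, hcol⟩ := col_three_pairs Y a b z e p q hab hze hpq (pair_subset ha hb)
            (pair_subset (mem_sdiff_pair hz hza hzb) (mem_sdiff_pair he hea heb))
            (pair_subset (mem_sdiff_pair (mem_sdiff_pair hpY hpa hpb) hpz h2.1)
              (mem_sdiff_pair (mem_sdiff_pair hqY hqa hqb) hqz h2.2)) dab dze dpq
          have : k = d + 1 := by omega
          exact this ▸ hcol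
        · exfalso
          by_cases hpc : p = c
          · have hpe : p ≠ e := hpc ▸ hce
            have hqe : q = e := by
              by_contra hqe
              exact h2 ⟨hpe, hqe⟩
            apply dpq
            rw [hpc, hqe]
            exact hcc
          · have hqc : q = c := by
              by_contra hqc
              exact h1 ⟨hpc, hqc⟩
            have hqe : q ≠ e := hqc ▸ hce
            have hpe : p = e := by
              by_contra hpe
              exact h2 ⟨hpe, hqe⟩
            apply dpq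
            rw [hpe, hqc, dist_comm]
            exact hcc
    have three : ∀ s s', s ∈ (Y.erase z).erase a → s' ∈ (Y.erase z).erase a → s ≠ b → s' ≠ b →
        s ≠ s' → dist b s ≠ D → dist b s' ≠ D → False := by
      intro s s' hs hs' hsb hs'b hss' d1 d2
      obtain ⟨hsY, _, hsa⟩ := hW2 s hs
      obtain ⟨hs'Y, _, hs'a⟩ := hW2 s' hs'
      have h1 := hdeg b hb {a, s, s'}
        (triple_subset (Finset.mem_erase.mpr ⟨hab, ha⟩) (Finset.mem_erase.mpr ⟨hsb, hsY⟩)
          (Finset.mem_erase.mpr ⟨hs'b, hs'Y⟩))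
        (by
          intro t ht
          simp only [Finset.mem_insert, Finset.mem_singleton] at ht
          rcases ht with rfl | rfl | rfl
          · rw [dist_comm]; exact dab
          · exact d1
          · exact d2)
      have h2 : ({a, s, s'} : Finset (EuclideanSpace ℝ (Fin d))).card = 3 := by
        rw [Finset.card_insert_of_notMem, Finset.card_pair hss']
        simp [hsa.symm, hs'a.symm]
      omega
    rcases key p hp q hq hpq dpq with h | h
    · exact h
    rcases key p' hp' q' hq' hpq' dpq' with h' | h'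
    · exact h'
    exfalso
    rcases h with h | h <;> rcases h' with h' | h'
    · -- p = b, p' = b
      apply three q q' hq hq' (fun hh => hpq (h.trans hh.symm)) (fun hh => hpq' (h'.trans hh.symm))
        (fun hh => n1 ⟨h'.trans h.symm, hh.symm⟩)
      · rw [← h]; exact dpq
      · rw [← h']; exact dpq'
    · -- p = b, q' = b
      apply three q p' hq hp' (fun hh => hpq (h.trans hh.symm)) (fun hh => hpq' (hh.trans h'.symm))
        (fun hh => n2 ⟨hh.symm, h'.trans h.symm⟩)
      · rw [← h]; exact dpq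
      · rw [← h', dist_comm]; exact dpq'
    · -- q = b, p' = b
      apply three p q' hp hq' (fun hh => hpq (hh.trans h.symm)) (fun hh => hpq' (h'.trans hh.symm))
        (fun hh => n2 ⟨h'.trans h.symm, hh.symm⟩)
      · rw [← h, dist_comm]; exact dpq
      · rw [← h']; exact dpq'
    · -- q = b, q' = b
      apply three p p' hp hp' (fun hh => hpq (hh.trans h.symm)) (fun hh => hpq' (hh.trans h'.symm))
        (fun hh => n1 ⟨hh.symm, h'.trans h.symm⟩)
      · rw [← h, dist_comm]; exact dpq
      · rw [← h', dist_comm]; exact dpq'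
  · obtain ⟨k, hk, hcol⟩ := col_pair_triangle Y a b z c e hab hzc hze hce (pair_subset ha hb)
      (triple_subset (mem_sdiff_pair hz hza hzb) (mem_sdiff_pair hc hca hcb)
        (mem_sdiff_pair he hea heb)) dab dzc dze hcc
    have : k = d + 1 := by omega
    exact this ▸ hcol

lemma col_main (d : ℕ) (D : ℝ) : ∀ n : ℕ, ∀ Y : Finset (EuclideanSpace ℝ (Fin d)), Y.card = n →
    n ≤ d + 4 → (∀ x ∈ Y, ∀ y ∈ Y, dist x y ≤ D) → Col D Y (d + 1) := by
  intro n
  induction n with
  | zero =>
    intro Y hY _ _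
    have := col_card (D := D) Y
    rw [hY] at this
    exact col_mono (Nat.zero_le _) this
  | succ n ih =>
    intro Y hY hn hdist
    by_cases hlow : ∃ v ∈ Y, ((Y.erase v).filter (fun y => dist v y = D)).card ≤ d
    · obtain ⟨v, hv, hvd⟩ := hlow
      obtain ⟨f, hf1, hf2⟩ := ih (Y.erase v) (by rw [Finset.card_erase_of_mem hv, hY]; rfl)
        (by omega)
        (fun x hx y hy => hdist x (Finset.mem_of_mem_erase hx) y (Finset.mem_of_mem_erase hy))
      have hex : ∃ c ∈ Finset.range (d + 1),
          c ∉ ((Y.erase v).filter (fun y => dist v y = D)).image f := by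
        apply Finset.exists_mem_notMem_of_card_lt_card
        calc _ ≤ ((Y.erase v).filter (fun y => dist v y = D)).card := Finset.card_image_le
          _ ≤ d := hvd
          _ < (Finset.range (d + 1)).card := by simp
      obtain ⟨c, hc, hcn⟩ := hex
      refine ⟨Function.update f v c, ?_, ?_⟩
      · intro x hx
        by_cases hxv : x = v
        · subst hxv
          simpa using Finset.mem_range.mp hc
        · rw [Function.update_of_ne hxv]
          exact hf1 x (Finset.mem_erase.mpr ⟨hxv, hx⟩)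
      · intro x hx y hy hxy hd
        by_cases hxv : x = v
        · subst hxv
          have hyv : y ≠ x := hxy.symm
          rw [Function.update_self, Function.update_of_ne hyv]
          intro heq
          apply hcn
          rw [Finset.mem_image]
          exact ⟨y, Finset.mem_filter.mpr ⟨Finset.mem_erase.mpr ⟨hyv, hy⟩, hd⟩, heq.symm⟩
        · by_cases hyv : y = v
          · subst hyv
            rw [Function.update_self, Function.update_of_ne hxv]
            intro heq
            apply hcn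
            rw [Finset.mem_image]
            exact ⟨x, Finset.mem_filter.mpr ⟨Finset.mem_erase.mpr ⟨hxv, hx⟩,
              by rw [dist_comm]; exact hd⟩, heq⟩
          · rw [Function.update_of_ne hxv, Function.update_of_ne hyv]
            exact hf2 x (Finset.mem_erase.mpr ⟨hxv, hx⟩) y (Finset.mem_erase.mpr ⟨hyv, hy⟩) hxy hd
    · push Not at hlow
      have hdeg : ∀ v ∈ Y, ∀ T : Finset (EuclideanSpace ℝ (Fin d)), T ⊆ Y.erase v →
          (∀ t ∈ T, dist v t ≠ D) → T.card + d + 2 ≤ Y.card := by
        intro v hv T hT hTd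
        have h1 := hlow v hv
        have h2 : (Y.erase v).filter (fun y => dist v y = D) ⊆ (Y.erase v) \ T := by
          intro y hy
          rw [Finset.mem_filter] at hy
          exact Finset.mem_sdiff.mpr ⟨hy.1, fun hyT => hTd y hyT hy.2⟩
        have h3 := Finset.card_le_card h2
        rw [Finset.card_sdiff_of_subset hT, Finset.card_erase_of_mem hv] at h3
        have h4 := Finset.card_le_card hT
        rw [Finset.card_erase_of_mem hv] at h4
        omega
      have hne : Y.Nonempty := by
        rw [← Finset.card_pos]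
        omega
      obtain ⟨v0, hv0⟩ := hne
      have hge := hdeg v0 hv0 ∅ (Finset.empty_subset _) (by simp)
      have nbr2 : ∀ v s s', v ∈ Y → s ∈ Y → s' ∈ Y → s ≠ v → s' ≠ v → s ≠ s' → dist v s ≠ D →
          dist v s' ≠ D → 2 + d + 2 ≤ Y.card := by
        intro v s s' hv hs hs' hsv hs'v hss' d1 d2
        have h1 := hdeg v hv {s, s'}
          (pair_subset (Finset.mem_erase.mpr ⟨hsv, hs⟩) (Finset.mem_erase.mpr ⟨hs'v, hs'⟩))
          (by
            intro t ht
            simp only [Finset.mem_insert, Finset.mem_singleton] at ht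
            rcases ht with rfl | rfl
            · exact d1
            · exact d2)
        rwa [Finset.card_pair hss'] at h1
      have hcases : Y.card = d + 2 ∨ Y.card = d + 3 ∨ Y.card = d + 4 := by
        simp only [Finset.card_empty] at hge
        omega
      rcases hcases with hc | hc | hc
      · exfalso
        obtain ⟨a, ha, b, hb, _, _, _, _, hab, dab, _⟩ := two_short d D Y hdist hc
        have h1 := hdeg a ha {b} (by
          intro t ht
          rw [Finset.mem_singleton] at ht
          rw [ht]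
          exact Finset.mem_erase.mpr ⟨hab.symm, hb⟩) (by
          intro t ht
          rw [Finset.mem_singleton] at ht
          rw [ht]
          exact dab)
        rw [Finset.card_singleton] at h1
        omega
      · have hWc : (Y.erase v0).card = d + 2 := by
          rw [Finset.card_erase_of_mem hv0, hc]
          rfl
        obtain ⟨a, ha, b, hb, x, hx, y, hy, hab, dab, hxy, dxy, n1, n2⟩ :=
          two_short d D (Y.erase v0)
            (fun x hx y hy => hdist x (Finset.mem_of_mem_erase hx) y (Finset.mem_of_mem_erase hy)) hWc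
        have ha := Finset.mem_of_mem_erase ha
        have hb := Finset.mem_of_mem_erase hb
        have hx := Finset.mem_of_mem_erase hx
        have hy := Finset.mem_of_mem_erase hy
        have hxa : x ≠ a := by
          intro h
          have := nbr2 a b y ha hb hy hab.symm (fun hh => hxy (h.trans hh.symm))
            (fun hh => n1 ⟨h, hh.symm⟩) dab (by rw [← h]; exact dxy)
          omega
        have hxb : x ≠ b := by
          intro h
          have := nbr2 b a y hb ha hy hab (fun hh => hxy (h.trans hh.symm))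
            (fun hh => n2 ⟨h, hh.symm⟩) (by rw [dist_comm]; exact dab) (by rw [← h]; exact dxy)
          omega
        have hya : y ≠ a := by
          intro h
          have := nbr2 a b x ha hb hx hab.symm (fun hh => hxy (hh.trans h.symm))
            (fun hh => n2 ⟨hh.symm, h⟩) dab (by rw [← h, dist_comm]; exact dxy)
          omega
        have hyb : y ≠ b := by
          intro h
          have := nbr2 b a x hb ha hx hab (fun hh => hxy (hh.trans h.symm))
            (fun hh => n1 ⟨hh.symm, h⟩) (by rw [dist_comm]; exact dab)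
            (by rw [← h, dist_comm]; exact dxy)
          omega
        have := col_two_pairs Y a b x y ha hb hx hy hab hxy hxa hxb hya hyb dab dxy
        rw [hc] at this
        exact this
      · -- card = d + 4
        obtain ⟨v1, hv1, hv10⟩ : ∃ v1 ∈ Y, v1 ≠ v0 := by
          obtain ⟨p, hp, q, hq, hpq⟩ := Finset.one_lt_card.mp (by omega : 1 < Y.card)
          by_cases h : p = v0
          · exact ⟨q, hq, fun hh => hpq (h.trans hh.symm)⟩
          · exact ⟨p, hp, h⟩
        have hW0c : ((Y.erase v0).erase v1).card = d + 2 := by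
          rw [Finset.card_erase_of_mem (Finset.mem_erase.mpr ⟨hv10, hv1⟩),
            Finset.card_erase_of_mem hv0, hc]
          rfl
        have hsub2 : ∀ (u w : EuclideanSpace ℝ (Fin d)), ∀ x ∈ (Y.erase u).erase w,
            x ∈ Y ∧ x ≠ u ∧ x ≠ w := by
          intro u w x hx
          have h1 := Finset.mem_erase.mp hx
          have h2 := Finset.mem_erase.mp h1.2
          exact ⟨h2.2, h2.1, h1.1⟩
        obtain ⟨a, ha, b, hb, _, _, _, _, hab, dab, _⟩ := two_short d D ((Y.erase v0).erase v1)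
          (fun x hx y hy => hdist x (hsub2 _ _ x hx).1 y (hsub2 _ _ y hy).1) hW0c
        have ha := (hsub2 _ _ a ha).1
        have hb := (hsub2 _ _ b hb).1
        have hW1c : ((Y.erase a).erase b).card = d + 2 := by
          rw [Finset.card_erase_of_mem (Finset.mem_erase.mpr ⟨hab.symm, hb⟩),
            Finset.card_erase_of_mem ha, hc]
          rfl
        obtain ⟨c1, hc1, e1, he1, c2, hc2, e2, he2, hce1, dce1, hce2, dce2, n1, n2⟩ :=
          two_short d D ((Y.erase a).erase b)
            (fun x hx y hy => hdist x (hsub2 _ _ x hx).1 y (hsub2 _ _ y hy).1) hW1c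
        obtain ⟨hc1Y, hc1a, hc1b⟩ := hsub2 _ _ c1 hc1
        obtain ⟨he1Y, he1a, he1b⟩ := hsub2 _ _ e1 he1
        obtain ⟨hc2Y, hc2a, hc2b⟩ := hsub2 _ _ c2 hc2
        obtain ⟨he2Y, he2a, he2b⟩ := hsub2 _ _ e2 he2
        by_cases h11 : c2 = c1
        · exact final_case Y hc hdist hdeg a b c1 e1 e2 ha hb hc1Y he1Y he2Y hab hc1a hc1b he1a he1b
            he2a he2b hce1 (h11 ▸ hce2) (fun hh => n1 ⟨h11, hh.symm⟩) dab dce1 (h11 ▸ dce2)
        by_cases h12 : c2 = e1
        · exact final_case Y hc hdist hdeg a b e1 c1 e2 ha hb he1Y hc1Y he2Y hab he1a he1b hc1a hc1b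
            he2a he2b hce1.symm (h12 ▸ hce2) (fun hh => n2 ⟨h12, hh.symm⟩) dab
            (by rw [dist_comm]; exact dce1) (h12 ▸ dce2)
        by_cases h21 : e2 = c1
        · exact final_case Y hc hdist hdeg a b c1 e1 c2 ha hb hc1Y he1Y hc2Y hab hc1a hc1b he1a he1b
            hc2a hc2b hce1 (h21 ▸ hce2.symm) (fun hh => h12 hh.symm) dab dce1
            (by rw [← h21, dist_comm]; exact dce2)
        by_cases h22 : e2 = e1
        · exact final_case Y hc hdist hdeg a b e1 c1 c2 ha hb he1Y hc1Y hc2Y hab he1a he1b hc1a hc1b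
            hc2a hc2b hce1.symm (h22 ▸ hce2.symm) (fun hh => h11 hh.symm) dab
            (by rw [dist_comm]; exact dce1) (by rw [← h22, dist_comm]; exact dce2)
        obtain ⟨k, hk, hcol⟩ := col_three_pairs Y a b c1 e1 c2 e2 hab hce1 hce2 (pair_subset ha hb)
          (pair_subset (mem_sdiff_pair hc1Y hc1a hc1b) (mem_sdiff_pair he1Y he1a he1b))
          (pair_subset (mem_sdiff_pair (mem_sdiff_pair hc2Y hc2a hc2b) h11 h12)
            (mem_sdiff_pair (mem_sdiff_pair he2Y he2a he2b) h21 h22)) dab dce1 dce2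
        have : k = d + 1 := by omega
        exact this ▸ hcol

theorem result (d : ℕ) (Y : Finset (EuclideanSpace ℝ (Fin d))) (h2 : 2 ≤ Y.card)
    (h4 : Y.card ≤ d + 4) :
    ∃ f : EuclideanSpace ℝ (Fin d) → Fin (d + 1),
      ∀ i : Fin (d + 1), Metric.diam {y | y ∈ Y ∧ f y = i} <
        Metric.diam (Y : Set (EuclideanSpace ℝ (Fin d))) := by
  classical
  set D : ℝ := Metric.diam (Y : Set (EuclideanSpace ℝ (Fin d))) with hD
  have hbdd : Bornology.IsBounded (Y : Set (EuclideanSpace ℝ (Fin d))) := Y.finite_toSet.isBounded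
  have hdist : ∀ x ∈ Y, ∀ y ∈ Y, dist x y ≤ D := by
    intro x hx y hy
    exact Metric.dist_le_diam_of_mem hbdd (Finset.mem_coe.mpr hx) (Finset.mem_coe.mpr hy)
  have hDpos : 0 < D := by
    obtain ⟨p, hp, q, hq, hpq⟩ := Finset.one_lt_card.mp (by omega : 1 < Y.card)
    exact lt_of_lt_of_le (dist_pos.mpr hpq) (hdist p hp q hq)
  obtain ⟨g, hg1, hg2⟩ := col_main d D Y.card Y rfl h4 hdist
  refine ⟨fun y => if h : g y < d + 1 then ⟨g y, h⟩ else 0, ?_⟩
  intro i
  set f : EuclideanSpace ℝ (Fin d) → Fin (d + 1) := fun y => if h : g y < d + 1 then ⟨g y, h⟩ else 0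
    with hf
  have hZ : {y | y ∈ Y ∧ f y = i} = ((Y.filter (fun y => f y = i) : Finset _) : Set (EuclideanSpace ℝ (Fin d))) := by
    ext y
    simp
  rw [hZ]
  by_cases hemp : (Y.filter (fun y => f y = i)).Nonempty
  · obtain ⟨⟨x0, y0⟩, hmem, hmax⟩ := Finset.exists_max_image
      ((Y.filter (fun y => f y = i)) ×ˢ (Y.filter (fun y => f y = i)))
      (fun p => dist p.1 p.2) (hemp.product hemp)
    rw [Finset.mem_product] at hmem
    have hle : Metric.diam ((Y.filter (fun y => f y = i) : Finset _) : Set (EuclideanSpace ℝ (Fin d)))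
        ≤ dist x0 y0 := by
      apply Metric.diam_le_of_forall_dist_le dist_nonneg
      intro x hx y hy
      exact hmax (x, y) (Finset.mem_product.mpr ⟨Finset.mem_coe.mp hx, Finset.mem_coe.mp hy⟩)
    apply lt_of_le_of_lt hle
    obtain ⟨hx0, hy0⟩ := hmem
    simp only at hx0 hy0
    rw [Finset.mem_filter] at hx0 hy0
    by_cases hxy : x0 = y0
    · rw [hxy, dist_self]
      exact hDpos
    · apply lt_of_le_of_ne (hdist x0 hx0.1 y0 hy0.1)
      intro hd
      apply hg2 x0 hx0.1 y0 hy0.1 hxy hd
      have h5 : f x0 = f y0 := hx0.2.trans hy0.2.symm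
      simp only [hf, hg1 x0 hx0.1, hg1 y0 hy0.1, dif_pos] at h5
      exact Fin.mk.inj_iff.mp h5
  · rw [Finset.not_nonempty_iff_eq_empty] at hemp
    rw [hemp]
    simpa using hDpos

end Vale.Agent.Results.P052.FewPoints
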